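import Vale.Agent.P128.RAD.Main
import Vale.Agent.P128.T.Dirn

/-! P128 B7c/Ang: tangents and angles from the length estimate. -/

namespace Vale.Agent.P128

open MeasureTheory Set Metric Filter Topology
open scoped ENNReal

theorem ang_real_b7c {a b c d f g X Y : ℝ} (r1 : X = a + c + f) (r2 : Y = b + d + g)
    (n0 : a ^ 2 + b ^ 2 = 1) (n1 : c ^ 2 + d ^ 2 = 1) (n2 : f ^ 2 + g ^ 2 = 1)
    (h : 3 ≤ (1 + ((a - 1 / 6 * X) ^ 2 + (b - 1 / 6 * Y) ^ 2)) / 2 +
      (1 + ((c - 1 / 6 * X) ^ 2 + (d - 1 / 6 * Y) ^ 2)) / 2 +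
      (1 + ((f - 1 / 6 * X) ^ 2 + (g - 1 / 6 * Y) ^ 2)) / 2) : X = 0 ∧ Y = 0 := by
  have q1 : X ^ 2 = X * a + X * c + X * f := by rw [sq]; nth_rw 2 [r1]; ring
  have q2 : Y ^ 2 = Y * b + Y * d + Y * g := by rw [sq]; nth_rw 2 [r2]; ring
  have h2 : X ^ 2 + Y ^ 2 ≤ 0 := by linarith
  exact ⟨pow_eq_zero_iff two_ne_zero |>.1 (le_antisymm (by linarith [sq_nonneg Y]) (sq_nonneg X)),
    pow_eq_zero_iff two_ne_zero |>.1 (le_antisymm (by linarith [sq_nonneg X]) (sq_nonneg Y))⟩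

theorem ang_b7c {e : Fin 3 → ℂ} (he : ∀ j, ‖e j‖ = 1)
    (h : ∀ o : ℂ, ‖o‖ ≤ 1 / 2 → 3 ≤ ∑ j, ‖e j - o‖) :
    ∀ i j, i ≠ j → (e i * (starRingEnd ℂ) (e j)).re = -1 / 2 := by
  have hn : ∀ j, (e j).re ^ 2 + (e j).im ^ 2 = 1 := fun j => by
    have := Complex.sq_norm (e j)
    rw [he j, Complex.normSq_apply] at this
    linarith
  have hle : ∀ w : ℂ, ‖w‖ ≤ (1 + (w.re ^ 2 + w.im ^ 2)) / 2 := fun w => by
    have := Complex.sq_norm w
    rw [Complex.normSq_apply] at this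
    nlinarith [sq_nonneg (‖w‖ - 1)]
  set S := e 0 + e 1 + e 2 with hS
  have hS3 : ‖S‖ ≤ 3 := by
    have := norm_add₃_le (a := e 0) (b := e 1) (c := e 2)
    rw [he, he, he] at this
    linarith
  have h1 := h (((1 / 6 : ℝ) : ℂ) * S) (by
    rw [norm_mul, Complex.norm_real, Real.norm_of_nonneg (by norm_num)]
    linarith)
  rw [Fin.sum_univ_three] at h1
  have a0 := hle (e 0 - ((1 / 6 : ℝ) : ℂ) * S)
  have a1 := hle (e 1 - ((1 / 6 : ℝ) : ℂ) * S)
  have a2 := hle (e 2 - ((1 / 6 : ℝ) : ℂ) * S)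
  simp only [Complex.sub_re, Complex.sub_im, Complex.re_ofReal_mul, Complex.im_ofReal_mul] at a0 a1 a2
  have r1 : S.re = (e 0).re + (e 1).re + (e 2).re := by simp [hS]
  have r2 : S.im = (e 0).im + (e 1).im + (e 2).im := by simp [hS]
  have n0 := hn 0
  have n1 := hn 1
  have n2 := hn 2
  obtain ⟨z1, z2⟩ := ang_real_b7c r1 r2 n0 n1 n2 (h1.trans (add_le_add (add_le_add a0 a1) a2))
  rw [z1] at r1
  rw [z2] at r2
  have key : ∀ a b c d f g : ℝ, 0 = a + c + f → 0 = b + d + g → a ^ 2 + b ^ 2 = 1 →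
      c ^ 2 + d ^ 2 = 1 → f ^ 2 + g ^ 2 = 1 → a * c - b * -d = -1 / 2 := by
    intro a b c d f g k1 k2 k3 k4 k5
    have e1 : f = -(a + c) := by linarith
    have e2 : g = -(b + d) := by linarith
    rw [e1, e2] at k5
    nlinarith
  have k01 := key _ _ _ _ _ _ r1 r2 n0 n1 n2
  have k02 := key _ _ _ _ _ _ (by linarith) (by linarith) n0 n2 n1
  have k10 := key _ _ _ _ _ _ (by linarith) (by linarith) n1 n0 n2
  have k12 := key _ _ _ _ _ _ (by linarith) (by linarith) n1 n2 n0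
  have k20 := key _ _ _ _ _ _ (by linarith) (by linarith) n2 n0 n1
  have k21 := key _ _ _ _ _ _ (by linarith) (by linarith) n2 n1 n0
  intro i j hij
  rw [Complex.mul_re, Complex.conj_re, Complex.conj_im]
  fin_cases i <;> fin_cases j
  exacts [absurd rfl hij, k01, k02, k10, absurd rfl hij, k12, k20, k21, absurd rfl hij]

theorem trip_tang {K : Set ℂ} {x : ℂ} {ρ A α : ℝ} {z z' : Fin 3 → ℝ → ℂ}
    (hS : Star 3 K x ρ A α z z') {C : ℝ} (hC : 0 ≤ C)
    (hL : ∀ t ∈ Ioc 0 ρ, ∃ s ∈ Ioo (t / 2) t, ∀ O ∈ closedBall x (s / 2),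
      ∑ j, ∫ r in (0 : ℝ)..s, ‖z' j r‖ ≤ ∑ j, dist (z j s) O + C * t * √t) : Tang 3 x ρ z := by
  obtain ⟨-, hc, hr, -, -, hi⟩ := hS.basic
  have hρ := hS.pos
  have hq : 0 < √ρ := Real.sqrt_pos.2 hρ
  have hge : ∀ j a b, 0 ≤ a → a ≤ b → b ≤ ρ → b - a ≤ ∫ r in a..b, ‖z' j r‖ := by
    intro j a b ha hab hb
    have := intervalIntegral.integral_mono_on_of_le_Ioo hab (intervalIntegrable_const (c := (1 : ℝ)))
      (hi j a b ha hab hb) fun r hr' => (hr j r ⟨ha.trans_lt hr'.1, hr'.2.le.trans hb⟩).2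
    simpa using this
  have hpow : ∀ r : ℝ, 0 < r → r ^ (1 + 1 / 2 : ℝ) = r * √r := fun r h0 => by
    rw [Real.rpow_add h0, Real.rpow_one, Real.sqrt_eq_rpow]
  have hint : ∀ j, ∀ r ∈ Ioc 0 ρ,
      ∫ s in (r / 2)..r, (1 - 1 / ‖z' j s‖) ≤ (4 * C + 2 / √ρ) * r ^ (1 + 1 / 2 : ℝ) := by
    intro j r hr0
    have r0 := hr0.1
    have hsub : Icc (r / 2) r ⊆ Ioc 0 ρ := fun s hs => ⟨by linarith [hs.1], hs.2.trans hr0.2⟩
    have i1 := hi j (r / 2) r (by linarith) (by linarith) hr0.2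
    have i2 : IntervalIntegrable (fun s => 1 - 1 / ‖z' j s‖) volume (r / 2) r := by
      refine ContinuousOn.intervalIntegrable_of_Icc (by linarith) ?_
      exact continuousOn_const.sub (continuousOn_const.div ((hc j).mono hsub).norm fun s hs =>
        (lt_of_lt_of_le one_pos (hr j s (hsub hs)).2).ne')
    have b1 : ∫ s in (r / 2)..r, (1 - 1 / ‖z' j s‖) ≤ (∫ s in (r / 2)..r, ‖z' j s‖) - r / 2 := by
      have := intervalIntegral.integral_mono_on (by linarith) i2
        (i1.sub (intervalIntegrable_const (c := (1 : ℝ)))) fun s hs => by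
          have k1 := (hr j s (hsub hs)).2
          have k2 : 2 - ‖z' j s‖ ≤ 1 / ‖z' j s‖ := by
            rw [le_div_iff₀ (by linarith)]
            nlinarith [sq_nonneg (‖z' j s‖ - 1)]
          linarith
      rw [intervalIntegral.integral_sub i1 intervalIntegrable_const] at this
      simp only [intervalIntegral.integral_const, smul_eq_mul, mul_one] at this
      linarith
    have p1 : 0 ≤ C * r * √r := by positivity
    have p2 : 0 ≤ 2 / √ρ * r * √r := by positivity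
    rw [hpow r r0]
    rcases le_total (2 * r) ρ with c | c
    · obtain ⟨s, hs, hO⟩ := hL (2 * r) ⟨by linarith, c⟩
      have s1 : r < s := by linarith [hs.1]
      have sρ : s ≤ ρ := hs.2.le.trans c
      have b2 := hO x (mem_closedBall_self (by linarith))
      have d1 : ∀ i, dist (z i s) x = s := fun i => by
        rw [dist_eq_norm]; exact (hS.rad i).norm s ⟨by linarith, sρ⟩
      have b3 : (∫ q in (0 : ℝ)..s, ‖z' j q‖) - s ≤ C * (2 * r) * √(2 * r) := by
        have := Finset.single_le_sum (f := fun i => (∫ q in (0 : ℝ)..s, ‖z' i q‖) - s)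
          (fun i _ => by linarith [hge i 0 s le_rfl (by linarith) sρ]) (Finset.mem_univ j)
        simp only [d1, Fin.sum_univ_three] at this b2
        linarith
      have b4 := intervalIntegral.integral_add_adjacent_intervals
        (hi j 0 (r / 2) le_rfl (by linarith) (by linarith)) i1
      have b5 := intervalIntegral.integral_add_adjacent_intervals
        (hi j 0 r le_rfl r0.le hr0.2) (hi j r s r0.le s1.le sρ)
      have b6 := hge j 0 (r / 2) le_rfl (by linarith) (by linarith)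
      have b7 := hge j r s r0.le s1.le sρ
      have b8 : √(2 * r) ≤ 2 * √r := by
        rw [Real.sqrt_le_left (by positivity), mul_pow, Real.sq_sqrt r0.le]
        linarith
      have b9 : C * (2 * r) * √(2 * r) ≤ C * (2 * r) * (2 * √r) := by gcongr
      nlinarith
    · have b2 : ∫ s in (r / 2)..r, ‖z' j s‖ ≤ r := by
        have := intervalIntegral.integral_mono_on (by linarith) i1
          (intervalIntegrable_const (c := (2 : ℝ))) fun s hs => (hS.rad j).bound s (hsub hs)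
        simp only [intervalIntegral.integral_const, smul_eq_mul] at this
        linarith
      have b3 : √ρ ≤ 2 * √r := by
        rw [Real.sqrt_le_left (by positivity), mul_pow, Real.sq_sqrt r0.le]
        linarith
      have b4 : 1 ≤ 2 / √ρ * √r := by
        rw [div_mul_eq_mul_div, le_div_iff₀ hq]; linarith
      have b5 := mul_le_mul_of_nonneg_right b4 r0.le
      nlinarith
  choose e B he hB hz using fun j => T.direction (β := 1 / 2) hρ (by norm_num) (hS.rad j).norm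
    (hS.rad j).deriv (hS.rad j).bound (hc j)
    (fun r hr0 => ⟨by rw [mul_comm]; exact (hr j r hr0).1, (hr j r hr0).2⟩) (hint j)
  have hz' : ∀ j, ∀ r ∈ Ioc 0 ρ, ‖z j r - x - r * e j‖ ≤ (∑ i, B i) * r ^ (1 + 1 / 2 / 2 : ℝ) :=
    fun j r hr0 => (hz j r hr0).trans (mul_le_mul_of_nonneg_right
      (Finset.single_le_sum (fun i _ => hB i) (Finset.mem_univ j)) (Real.rpow_nonneg hr0.1.le _))
  have hB0 : 0 ≤ ∑ i, B i := Finset.sum_nonneg fun i _ => hB i
  refine ⟨e, 1 / 2 / 2, ∑ i, B i, by norm_num, he, ang_b7c he fun o ho => ?_, hz'⟩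
  have t1 : Tendsto (fun t : ℝ => ∑ j, ‖e j - o‖ + 3 * (∑ i, B i) * t ^ (1 / 2 / 2 : ℝ) +
      2 * C * √t) (𝓝[>] 0) (𝓝 (∑ j, ‖e j - o‖ + 3 * (∑ i, B i) * (0 : ℝ) ^ (1 / 2 / 2 : ℝ) +
      2 * C * √0)) := by
    refine Tendsto.mono_left (ContinuousAt.tendsto ?_) nhdsWithin_le_nhds
    exact (continuousAt_const.add (continuousAt_const.mul
      (Real.continuousAt_rpow_const _ _ (Or.inr (by norm_num))))).add
      (continuousAt_const.mul Real.continuous_sqrt.continuousAt)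
  rw [Real.zero_rpow (by norm_num), Real.sqrt_zero, mul_zero, mul_zero, add_zero, add_zero] at t1
  refine ge_of_tendsto t1 ?_
  filter_upwards [Ioc_mem_nhdsGT hρ] with t ht
  obtain ⟨s, hs, hO⟩ := hL t ht
  have s0 : 0 < s := by linarith [hs.1, ht.1]
  have sρ : s ≤ ρ := hs.2.le.trans ht.2
  have b1 := hO (x + s * o) (by
    rw [mem_closedBall, dist_self_add_left, norm_mul, Complex.norm_real, Real.norm_of_nonneg s0.le]
    nlinarith)
  have b2 : ∀ j, dist (z j s) (x + s * o) ≤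
      s * ‖e j - o‖ + (∑ i, B i) * (s * t ^ (1 / 2 / 2 : ℝ)) := by
    intro j
    have k1 := hz' j s ⟨s0, sρ⟩
    rw [Real.rpow_add s0, Real.rpow_one] at k1
    have k2 : s ^ (1 / 2 / 2 : ℝ) ≤ t ^ (1 / 2 / 2 : ℝ) :=
      Real.rpow_le_rpow s0.le hs.2.le (by norm_num)
    have k3 : z j s - (x + s * o) = (z j s - x - s * e j) + s * (e j - o) := by ring
    have k4 : (∑ i, B i) * (s * s ^ (1 / 2 / 2 : ℝ)) ≤ (∑ i, B i) * (s * t ^ (1 / 2 / 2 : ℝ)) := by
      gcongr
    rw [dist_eq_norm, k3]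
    refine (norm_add_le _ _).trans ?_
    rw [norm_mul, Complex.norm_real, Real.norm_of_nonneg s0.le]
    linarith
  have b3 : C * t * √t ≤ C * (2 * s) * √t := by
    have : t ≤ 2 * s := by linarith [hs.1]
    gcongr
  have g0 := hge 0 0 s le_rfl s0.le sρ
  have g1 := hge 1 0 s le_rfl s0.le sρ
  have g2 := hge 2 0 s le_rfl s0.le sρ
  have c0 := b2 0
  have c1 := b2 1
  have c2 := b2 2
  rw [Fin.sum_univ_three, Fin.sum_univ_three] at b1
  refine le_of_mul_le_mul_left ?_ s0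
  rw [Fin.sum_univ_three (fun j => ‖e j - o‖)]
  nlinarith

end Vale.Agent.P128
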