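import Vale.Agent.P128.TC.Main
import Vale.Agent.P128.RAD.Main

/-! P128 B7c/Decay: energy decay and the length estimate at the centre of a star of three curves. -/

namespace Vale.Agent.P128

open MeasureTheory Set Metric Filter Topology
open scoped ENNReal

theorem decay_iter_b7c {f : ℝ → ℝ} {ρ E : ℝ} (hρ : 0 < ρ) (hE : 0 ≤ E)
    (h0 : ∀ r ∈ Ioc 0 ρ, f r ≤ 8 * r)
    (h1 : ∀ r ∈ Ioc 0 ρ, f (1 / 4 * r) ≤ E * r * √r ∨ f (1 / 4 * r) ≤ f r / 8) :
    ∃ M, 0 ≤ M ∧ ∀ r ∈ Ioc 0 ρ, f r ≤ M * r * √r := by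
  have hq : 0 < √ρ := Real.sqrt_pos.2 hρ
  have s4 : ∀ r : ℝ, √(4 * r) = 2 * √r := fun r => by
    rw [Real.sqrt_mul (by norm_num), show (4 : ℝ) = 2 ^ 2 by norm_num,
      Real.sqrt_sq (by norm_num)]
  set M := 8 * E + 16 / √ρ with hM
  have hM1 : 0 ≤ 16 / √ρ := by positivity
  have base : ∀ r ∈ Icc (ρ / 4) ρ, f r ≤ M * r * √r := by
    intro r hr
    have r0 : 0 < r := lt_of_lt_of_le (by positivity) hr.1
    have a1 : √ρ ≤ 2 * √r := by
      rw [← s4]; exact Real.sqrt_le_sqrt (by linarith [hr.1])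
    have a2 : 8 ≤ 16 / √ρ * √r := by
      rw [div_mul_eq_mul_div, le_div_iff₀ hq]; linarith
    have a3 : 0 ≤ 8 * E * r * √r := by positivity
    have a4 := mul_le_mul_of_nonneg_right a2 r0.le
    have := h0 r ⟨r0, hr.2⟩
    rw [hM]
    nlinarith
  have key : ∀ k : ℕ, ∀ r ∈ Icc (ρ / 4 ^ k) ρ, f r ≤ M * r * √r := by
    intro k
    induction k with
    | zero =>
      intro r hr
      have := hr.1
      rw [pow_zero, div_one] at this
      exact base r ⟨by linarith, hr.2⟩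
    | succ k ih =>
      intro r hr
      have r0 : 0 < r := lt_of_lt_of_le (by positivity) hr.1
      rcases le_total (ρ / 4) r with c | c
      · exact base r ⟨c, hr.2⟩
      · have b1 : 4 * r ≤ ρ := by linarith
        have b2 : ρ / 4 ^ k ≤ 4 * r := by
          have := hr.1
          rw [pow_succ, ← div_div, div_le_iff₀ (by norm_num)] at this
          linarith
        have b3 := ih _ ⟨b2, b1⟩
        have b4 := h1 (4 * r) ⟨by positivity, b1⟩
        rw [show 1 / 4 * (4 * r) = r by ring, s4] at b4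
        rw [s4] at b3
        have b5 : 0 ≤ 16 / √ρ * r * √r := by positivity
        rcases b4 with b4 | b4
        · rw [hM]; nlinarith
        · linarith
  refine ⟨M, by positivity, fun r hr => ?_⟩
  obtain ⟨k, hk⟩ := pow_unbounded_of_one_lt (ρ / r) (by norm_num : (1 : ℝ) < 4)
  refine key k r ⟨?_, hr.2⟩
  rw [div_lt_iff₀ hr.1] at hk
  rw [div_le_iff₀ (by positivity)]
  linarith

variable {Ω : Set ℂ} {ε : ℝ} {wk : Prop} {u : ℂ → ℝ} {K : Set ℂ} {x : ℂ} {ρ A α : ℝ}
  {z z' : Fin 3 → ℝ → ℂ}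

theorem trip_decay (h : AM0 Ω ε wk u K) (hS : Star 3 K x ρ A α z z') (hB : closedBall x ρ ⊆ Ω)
    (hG : ∀ s ∈ Ioc 0 ρ, Gap K x s Real.pi) :
    ∃ M, 0 ≤ M ∧ ∀ r ∈ Ioc 0 ρ, D u K x r ≤ M * r * √r := by
  obtain ⟨C, hC, H⟩ := DI1 (η := 1 / 100) (by norm_num)
  obtain ⟨κ, hκ, hsep⟩ := hS.sep (by norm_num)
  have hae := H Ω ε wk u K h x ρ hS.pos hB κ hκ
  have he := h.eps
  have hpi : Real.pi / (2 * Real.pi) + 1 / 100 = 51 / 100 := by
    have := Real.pi_pos
    field_simp
    norm_num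
  refine decay_iter_b7c hS.pos (E := 10 * (C * ε)) (by positivity) (fun r hr => ?_) fun r hr => ?_
  · obtain ⟨-, -, -, -, -, a1, a2, a3, a4⟩ :=
      h.upper_real hr.1 ((closedBall_subset_closedBall hr.2).trans hB)
    linarith
  · obtain ⟨-, a0, -, -, -, a1, -⟩ :=
      h.upper_real hr.1 ((closedBall_subset_closedBall hr.2).trans hB)
    have hsub : Ioo (1 / 4 * r) r ∩ univ ⊆ Ioo 0 ρ := fun s hs =>
      ⟨lt_trans (by linarith [hr.1]) hs.1.1, hs.1.2.trans_le hr.2⟩
    have h5 := T5 h.closed (y := x) (r := r) (τ := 1 / 4) (κ := 51 / 100) (E := C * ε) (m := 10)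
      (η := 0) (G := univ) hr.1 (by rw [a0]; exact ENNReal.ofReal_lt_top) (by norm_num)
      (by norm_num) (by norm_num) (by positivity) (by norm_num) le_rfl MeasurableSet.univ
      (by simp) (by
        filter_upwards [ae_restrict_of_ae_restrict_of_subset hsub hae,
          ae_restrict_mem (measurableSet_Ioo.inter MeasurableSet.univ)] with s hs hs'
        have hs2 := hsub hs'
        have h6 := hs Real.pi Real.pi_pos (by linarith [Real.pi_pos])
          (by rw [hS.basic.1 s ⟨hs2.1, hs2.2.le⟩]; exact finite_range _)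
          (hG s ⟨hs2.1, hs2.2.le⟩) (hsep s hs2)
        rwa [hpi] at h6)
    refine h5.imp id fun h6 => h6.trans ?_
    have l2 : 0 < Real.log 2 := Real.log_pos one_lt_two
    have l4 : Real.log (1 / (1 / 4)) = 2 * Real.log 2 := by
      rw [show (1 / (1 / 4) : ℝ) = 2 ^ 2 by norm_num, Real.log_pow]; norm_num
    have l8 : Real.exp (-(3 * Real.log 2)) = 1 / 8 := by
      rw [Real.exp_neg, show 3 * Real.log 2 = Real.log (2 ^ 3) by rw [Real.log_pow]; norm_num,
        Real.exp_log (by norm_num)]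
      norm_num
    have l9 : Real.exp (-((1 - 1 / 10) / (51 / 100)) * (Real.log (1 / (1 / 4)) - 0)) ≤ 1 / 8 := by
      rw [← l8, l4]
      exact Real.exp_le_exp.2 (by linarith)
    nlinarith

theorem trip_len (h : AM0 Ω ε wk u K) (hS : Star 3 K x ρ A α z z') (hB : closedBall x ρ ⊆ Ω)
    {M : ℝ} (hM : 0 ≤ M) (hD : ∀ r ∈ Ioc 0 ρ, D u K x r ≤ M * r * √r) :
    ∃ C, 0 ≤ C ∧ ∀ t ∈ Ioc 0 ρ, ∃ s ∈ Ioo (t / 2) t, ∀ O ∈ closedBall x (s / 2),
      ∑ j, ∫ r in (0 : ℝ)..s, ‖z' j r‖ ≤ ∑ j, dist (z j s) O + C * t * √t := by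
  classical
  have he := h.eps
  refine ⟨2000 * M + ε, by positivity, fun t ht => ?_⟩
  have t0 := ht.1
  obtain ⟨hm, -, hp⟩ := polar h.closed u x
  obtain ⟨-, a0, -⟩ := h.upper_real ht.1 ((closedBall_subset_closedBall ht.2).trans hB)
  obtain ⟨s, hs, -, hF⟩ := good_radius (F := Dp u K x) (a := t / 2) (b := t) (M := M * t * √t)
    (by linarith) (by positivity) hm
    ((lintegral_mono_set (show Ioo (t / 2) t ⊆ Ioo 0 t from Ioo_subset_Ioo_left (by linarith))).trans
      (by rw [← (hp t).1, a0]; exact ENNReal.ofReal_le_ofReal (hD t ht)))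
    MeasurableSet.univ (β := t / 2) (by positivity)
    (by rw [inter_univ, Real.volume_Ioo]; exact ENNReal.ofReal_le_ofReal (by linarith))
    (P := fun _ => True) (Eventually.of_forall fun _ => trivial)
  obtain ⟨⟨s1, s2⟩, -⟩ := hs
  have s0 : 0 < s := by linarith
  have hs' : s ∈ Ioc 0 ρ := ⟨s0, s2.le.trans ht.2⟩
  refine ⟨s, ⟨s1, s2⟩, fun O hO => ?_⟩
  have hP : ((Finset.univ.image fun j => z j s : Finset ℂ) : Set ℂ) = K ∩ sphere x s := by
    rw [hS.basic.1 s hs', Finset.coe_image, Finset.coe_univ, image_univ]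
  have h6 := T6 h s0 ((closedBall_subset_closedBall hs'.2).trans hB) hP hO
  rw [Finset.sum_image (fun i _ j _ hij => by
    by_contra hne
    exact hS.ne i j hne s hs' hij)] at h6
  have h7 : ENNReal.ofReal (∑ j, ∫ r in (0 : ℝ)..s, ‖z' j r‖) ≤ En u K (closedBall x s) := by
    rw [← hS.basic.2.2.2.2.1 0 s le_rfl s0.le hs'.2]
    exact le_add_left (measure_mono (inter_subset_inter_right _ fun w hw => hw.2))
  have h8 : ENNReal.ofReal (1000 * s) * Dp u K x s ≤ ENNReal.ofReal (2000 * M * t * √t) := by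
    refine (mul_le_mul_right hF _).trans ?_
    rw [← ENNReal.ofReal_mul (by positivity)]
    refine ENNReal.ofReal_le_ofReal ?_
    have e : M * t * √t / (t / 2) = 2 * M * √t := by field_simp
    have : 0 ≤ M * √t := by positivity
    rw [e]
    nlinarith
  have h9 : ε * s * √s ≤ ε * t * √t := by gcongr
  have h10 := h7.trans (h6.trans (add_le_add (add_le_add le_rfl h8) (ENNReal.ofReal_le_ofReal h9)))
  have p0 : 0 ≤ ∑ j, dist (z j s) O := Finset.sum_nonneg fun _ _ => dist_nonneg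
  rw [← ENNReal.ofReal_add p0 (by positivity), ← ENNReal.ofReal_add (by positivity) (by positivity),
    ENNReal.ofReal_le_ofReal_iff (by positivity)] at h10
  linarith

end Vale.Agent.P128
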