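import Vale.Agent.P128.RAD.Main

/-! P128 B7c/Gap: a star close to a propeller has angles below `π`. -/

namespace Vale.Agent.P128

open MeasureTheory Set Metric Filter Topology
open scoped ENNReal

theorem close_mono_b7c {N : ℕ} {η η' : ℝ} {K : Set ℂ} {x e : ℂ} {s : ℝ} (hs : 0 ≤ s)
    (hη : η ≤ η') (h : Close N η K x s e) : Close N η' K x s e := by
  have := mul_le_mul_of_nonneg_right hη hs
  refine ⟨h.1, fun w hw => ?_, fun w hw => ?_⟩
  · obtain ⟨w', h1, h2⟩ := h.2.1 w hw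
    exact ⟨w', h1, h2.trans this⟩
  · obtain ⟨w', h1, h2⟩ := h.2.2 w hw
    exact ⟨w', h1, h2.trans this⟩

theorem rt3_b7c {ζ : ℂ} (hζ : ‖ζ‖ = 1) : ∃ k : ℕ, 1 / 10 ≤ (ζ * rt 3 ^ k).im := by
  have e : rt 3 = Complex.exp (((Real.pi - Real.pi / 3 : ℝ) : ℂ) * Complex.I) := by
    unfold rt
    congr 1
    push_cast
    ring
  have h1 : (rt 3).re = -(1 / 2) := by
    rw [e, Complex.exp_ofReal_mul_I_re, Real.cos_pi_sub, Real.cos_pi_div_three]
  have h2 : (rt 3).im ^ 2 = 3 / 4 := by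
    rw [e, Complex.exp_ofReal_mul_I_im, Real.sin_pi_sub, Real.sin_sq, Real.cos_pi_div_three]
    norm_num
  have h3 : ζ.re ^ 2 + ζ.im ^ 2 = 1 := by
    have := Complex.sq_norm ζ
    rw [hζ, Complex.normSq_apply] at this
    linarith
  by_contra hn
  push Not at hn
  have a0 := hn 0
  have a1 := hn 1
  have a2 := hn 2
  simp only [pow_zero, mul_one, pow_one, sq, Complex.mul_im, Complex.mul_re, h1] at a0 a1 a2
  have a3 : ζ.im * ((rt 3).im * (rt 3).im) = ζ.im * (3 / 4) := by rw [← sq, h2]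
  have a4 : (ζ.re * (rt 3).im) ^ 2 = 3 / 4 * ζ.re ^ 2 := by rw [mul_pow, h2]; ring
  have b1 : ζ.re * (rt 3).im < 3 / 20 := by linarith
  have b2 : -(3 / 20) < ζ.re * (rt 3).im := by linarith
  have b3 : -(1 / 5) < ζ.im := by linarith
  nlinarith

theorem trip_gap {K : Set ℂ} {x : ℂ} {ρ A α : ℝ} {z z' : Fin 3 → ℝ → ℂ}
    (hS : Star 3 K x ρ A α z z') {s : ℝ} (hs : s ∈ Ioc 0 ρ) {e : ℂ}
    (hC : Close 3 (1 / 100) K x s e) : Gap K x s Real.pi := by
  intro θ
  have s0 := hs.1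
  have hE : ‖Complex.exp (-(θ : ℂ) * Complex.I)‖ = 1 := by
    rw [← Complex.ofReal_neg, Complex.norm_exp_ofReal_mul_I]
  obtain ⟨k, hk⟩ := rt3_b7c (ζ := e * Complex.exp (-(θ : ℂ) * Complex.I))
    (by rw [norm_mul, hC.1, hE, one_mul])
  set v := e * rt 3 ^ k with hv
  have hv1 : ‖v‖ = 1 := Rd.ray_norm 3 hC.1 k
  have n1 : ‖((99 / 100 * s : ℝ) : ℂ) * v‖ = 99 / 100 * s := by
    rw [norm_mul, hv1, Complex.norm_real, Real.norm_of_nonneg (by positivity), mul_one]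
  obtain ⟨w, hw, hd⟩ := hC.2.2 (x + ((99 / 100 * s : ℝ) : ℂ) * v)
    ⟨⟨k, _, by positivity, rfl⟩, by rw [mem_closedBall, dist_self_add_left, n1]; linarith⟩
  have d1 : dist (x + ((99 / 100 * s : ℝ) : ℂ) * v) x = 99 / 100 * s := by
    rw [dist_self_add_left, n1]
  have d2 : dist w x ≤ s := by
    linarith [dist_triangle_left w x (x + ((99 / 100 * s : ℝ) : ℂ) * v)]
  have d3 : 98 / 100 * s ≤ dist w x := by
    linarith [dist_triangle (x + ((99 / 100 * s : ℝ) : ℂ) * v) w x]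
  have hw' : w ∈ K ∩ closedBall x ρ := ⟨hw, d2.trans hs.2⟩
  rw [hS.eq] at hw'
  rcases hw' with h0 | h0
  · rw [mem_singleton_iff.1 h0, dist_self] at d3
    linarith
  obtain ⟨j, r, hr, rfl⟩ : ∃ j r, r ∈ Ioc 0 ρ ∧ z j r = w := by
    obtain ⟨j, r, hr, h⟩ := mem_iUnion.1 h0
    exact ⟨j, r, hr, h⟩
  have e1 : dist (z j r) x = r := by rw [dist_eq_norm]; exact (hS.rad j).norm r hr
  rw [e1] at d2 d3
  have l1 := Rd.rad_lip (hS.rad j) hs hr
  rw [abs_of_nonneg (by linarith)] at l1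
  have hp : z j s ∈ K := by
    have : z j s ∈ K ∩ closedBall x ρ := by
      rw [hS.eq]
      exact Or.inr (mem_iUnion.2 ⟨j, s, hs, rfl⟩)
    exact this.1
  have e2 : ‖z j s - x‖ = s := (hS.rad j).norm s hs
  set q := (z j s - x) * Complex.exp (-(θ : ℂ) * Complex.I) with hq
  have q1 : ‖q‖ = s := by rw [hq, norm_mul, hE, e2, mul_one]
  have q2 : 0 ≤ q.im := by
    have f1 : q = ((99 / 100 * s : ℝ) : ℂ) * (e * Complex.exp (-(θ : ℂ) * Complex.I) * rt 3 ^ k) +
        ((z j s - z j r) - (x + ((99 / 100 * s : ℝ) : ℂ) * v - z j r)) *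
          Complex.exp (-(θ : ℂ) * Complex.I) := by
      rw [hq, hv]; ring
    have f2 : ‖((z j s - z j r) - (x + ((99 / 100 * s : ℝ) : ℂ) * v - z j r)) *
        Complex.exp (-(θ : ℂ) * Complex.I)‖ ≤ 5 / 100 * s := by
      rw [norm_mul, hE, mul_one]
      refine (norm_sub_le _ _).trans ?_
      rw [dist_eq_norm] at hd
      linarith
    have f3 := (abs_le.1 ((Complex.abs_im_le_norm _).trans f2)).1
    rw [f1, Complex.add_im, Complex.im_ofReal_mul]
    nlinarith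
  refine ⟨θ + Complex.arg q, ⟨by linarith [Complex.arg_nonneg_iff.2 q2],
    by linarith [Complex.arg_le_pi q]⟩, ?_⟩
  have e3 : circleMap x s (θ + Complex.arg q) = z j s := by
    have f1 := Complex.norm_mul_exp_arg_mul_I q
    rw [q1] at f1
    have f2 : Complex.exp (-(θ : ℂ) * Complex.I) * Complex.exp (θ * Complex.I) = 1 := by
      rw [← Complex.exp_add]; simp
    simp only [circleMap]
    rw [Complex.ofReal_add, add_mul, Complex.exp_add]
    linear_combination Complex.exp (θ * Complex.I) * f1 + (z j s - x) * f2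
  rwa [e3]

end Vale.Agent.P128
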