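import Vale.Agent.P128.B7b.Main
import Vale.Agent.P128.B7c.Decay
import Vale.Agent.P128.B7c.Ang
import Vale.Agent.P128.B7c.Gap

/-! P128 block B7c: triple junctions, regularity at low energy points. Interface. -/

namespace Vale.Agent.P128

open MeasureTheory Set Metric Filter Topology
open scoped ENNReal

/-- A star of three curves with small angles has tangents at 120 degrees. -/
theorem TRIPCORE {Ω : Set ℂ} {ε c : ℝ} {wk : Prop} {u : ℂ → ℝ} {K : Set ℂ}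
    (h : AM Ω ε wk c u K) {x : ℂ} {ρ A α : ℝ} {z z' : Fin 3 → ℝ → ℂ}
    (hS : Star 3 K x ρ A α z z') (hB : closedBall x ρ ⊆ Ω)
    (hG : ∀ s ∈ Ioc 0 ρ, Gap K x s Real.pi) : Tang 3 x ρ z := by
  obtain ⟨M, hM, hD⟩ := trip_decay h.toAM0 hS hB hG
  obtain ⟨C, hC, hL⟩ := trip_len h.toAM0 hS hB hM hD
  exact trip_tang hS hC hL

theorem LOWREG {c : ℝ} (hc : 0 < c) : ∃ δ₀ ε₀ : ℝ, 0 < δ₀ ∧ 0 < ε₀ ∧
    ∀ (Ω : Set ℂ) (ε : ℝ) (wk : Prop) (u : ℂ → ℝ) (K : Set ℂ), AM Ω ε wk c u K →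
    ∀ (x : ℂ) (r : ℝ), x ∈ K → 0 < r → closedBall x r ⊆ Ω → ε * √r ≤ ε₀ →
      D u K x r ≤ δ₀ * r →
      (∃ e h A α φ φ', 0 < h ∧ 2 * h ≤ r ∧ 0 < α ∧ Graph K x e h A α 1 φ φ') ∨
      ((∀ᶠ t in 𝓝[>] (0 : ℝ), 2.5 * t < len K x t) ∧
        ∃ ρ A α z z', ρ ≤ r ∧ Star 3 K x ρ A α z z' ∧ Tang 3 x ρ z) := by
  obtain ⟨δF, εF, τ₁, τ₀, A, α, hδF, hεF, hτ₀, hτ01, hτ1, hα, hα1, HF⟩ := FLAT hc
  obtain ⟨δ₁, hδ₁, H3⟩ := NEAR3 hc
  have hτ₁ : 0 < τ₁ := hτ₀.trans_le hτ01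
  obtain ⟨η, A', hη, HR⟩ := RAD (N := 3) (Or.inr rfl) (τ := τ₀ / 4) (A := max A 0 * 4 ^ α)
    (by positivity) (by linarith) hα hα1
  obtain ⟨Λ, ε₃, hΛ, hε₃, H3⟩ := H3 (min η (1 / 100)) (τ₁ / 4) (lt_min hη (by norm_num))
    (by positivity) (by linarith)
  obtain ⟨δ₀, εG, hδ₀, hεG, HG⟩ := GOODSC hc (lt_min hδF hδ₁)
  refine ⟨δ₀, min εG (min εF ε₃), hδ₀, lt_min hεG (lt_min hεF hε₃),
    fun Ω ε wk u K h x r hx hr hB hε hD => ?_⟩
  have hlow := HG Ω ε wk u K h x r hr hB (hε.trans (min_le_left _ _)) hD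
  have hεs : ∀ t, t ≤ r → ε * √t ≤ εF ∧ ε * √t ≤ ε₃ := fun t ht => by
    have := (mul_le_mul_of_nonneg_left (Real.sqrt_le_sqrt ht) h.eps).trans
      (hε.trans (min_le_right _ _))
    exact ⟨this.trans (min_le_left _ _), this.trans (min_le_right _ _)⟩
  have hx' : x ∈ K ∩ ball x (r / 2) := ⟨hx, mem_ball_self (by positivity)⟩
  by_cases hev : ∀ᶠ t in 𝓝[>] (0 : ℝ), 2.5 * t < len K x t
  · refine Or.inr ⟨hev, ?_⟩
    obtain ⟨t₀, ht₀, hlen⟩ := (nhdsGT_basis_Ioc (0 : ℝ)).eventually_iff.1 hev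
    have hΛ0 : 0 < Λ := by linarith
    set T := min t₀ (r / (4 * Λ)) with hT
    have hT0 : 0 < T := lt_min ht₀ (by positivity)
    have hTΛ : Λ * T ≤ r / 4 := by
      have := mul_le_mul_of_nonneg_left (min_le_right t₀ (r / (4 * Λ))) hΛ0.le
      rwa [show Λ * (r / (4 * Λ)) = r / 4 by field_simp] at this
    have hTr : T ≤ r / 4 := by nlinarith
    have near : ∀ t ∈ Ioc 0 T, (∃ e, Close 3 (min η (1 / 100)) K x t e) ∧
        ∀ y ∈ K, dist y x = t → len K y (τ₁ / 4 * t) ≤ 2.4 * (τ₁ / 4 * t) := by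
      intro t ht
      have k1 : Λ * t ≤ r / 4 := (mul_le_mul_of_nonneg_left ht.2 hΛ0.le).trans hTΛ
      obtain ⟨-, ⟨e, he⟩, k2⟩ := H3 Ω ε wk u K h x t hx ht.1
        ((closedBall_subset_closedBall (by linarith)).trans hB) (hεs t (by linarith [ht.2])).2
        (fun s h1 h2 => (hlow x hx' s (ht.1.trans_le h1) (h2.trans k1)).trans
          (mul_le_mul_of_nonneg_right (min_le_right _ _) (ht.1.le.trans h1)))
        (fun s h1 h2 => by
          have s0 : 0 < s := lt_of_lt_of_le (div_pos ht.1 hΛ0) h1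
          have := hlen (show s ∈ Ioc 0 t₀ from ⟨s0, h2.trans (ht.2.trans (min_le_left _ _))⟩)
          linarith)
      refine ⟨⟨e, (he t ⟨by linarith [ht.1], by linarith [ht.1]⟩).2⟩, fun y hy hd => ?_⟩
      have := k2 y hy (by linarith [ht.1]) (by linarith [ht.1])
      rwa [hd] at this
    obtain ⟨z, z', hS⟩ := HR K x (T / 4) h.closed hx (by positivity)
      (fun s hs => by
        obtain ⟨e, he⟩ := (near s ⟨hs.1, by linarith [hs.2]⟩).1
        exact ⟨e, close_mono_b7c hs.1.le (min_le_left _ _) he⟩)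
      (fun y hy d0 d1 => by
        have k1 := (near (dist y x) ⟨d0, by linarith⟩).2 y hy rfl
        have k2 : 0 < dist y x / 4 := by positivity
        obtain ⟨e, φ, φ', hGr⟩ := HF Ω ε wk u K h y (dist y x / 4) hy k2
          ((closedBall_subset_closedBall' (by linarith)).trans hB) (hεs _ (by linarith)).1
          ((hlow y ⟨hy, mem_ball.2 (by linarith)⟩ _ k2 (by linarith)).trans
            (mul_le_mul_of_nonneg_right (min_le_left _ _) k2.le))
          (by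
            rw [show τ₁ * (dist y x / 4) = τ₁ / 4 * dist y x by ring]
            have : 0 ≤ τ₁ / 4 * dist y x := by positivity
            linarith)
        refine ⟨e, φ, φ', hGr.mono k2 hα (le_of_eq (by ring)) d0 (le_of_eq ?_)⟩
        rw [show dist y x / (dist y x / 4) = 4 by field_simp])
    refine ⟨T / 4, A', α, z, z', by linarith, hS, TRIPCORE h hS
      ((closedBall_subset_closedBall (by linarith)).trans hB) fun s hs => ?_⟩
    obtain ⟨e, he⟩ := (near s ⟨hs.1, by linarith [hs.2]⟩).1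
    exact trip_gap hS hs (close_mono_b7c hs.1.le (min_le_right _ _) he)
  · left
    obtain ⟨t, ht, t0, t1⟩ := ((not_eventually.1 hev).and_eventually
      (Ioc_mem_nhdsGT (show (0 : ℝ) < τ₁ * (r / 4) by positivity))).exists
    have k1 : t / τ₁ ≤ r / 4 := by rw [div_le_iff₀ hτ₁]; linarith
    have k2 : 0 < t / τ₁ := by positivity
    obtain ⟨e, φ, φ', hGr⟩ := HF Ω ε wk u K h x (t / τ₁) hx k2
      ((closedBall_subset_closedBall (by linarith)).trans hB) (hεs _ (by linarith)).1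
      ((hlow x hx' _ k2 k1).trans (mul_le_mul_of_nonneg_right (min_le_left _ _) k2.le))
      (by rw [show τ₁ * (t / τ₁) = t by field_simp]; exact not_lt.1 ht)
    exact ⟨e, τ₀ * (t / τ₁), _, α, φ, φ', by positivity, by nlinarith, hα,
      hGr.mono k2 hα le_rfl one_pos le_rfl⟩

end Vale.Agent.P128
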